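import Vale.Agent.P281.H180.TG.PowB

/-!
# P281, project T-G, block G7: the theorem, in any finite dimensional space (helper180)
-/

open Set Filter Metric

open scoped Topology

noncomputable section

namespace Vale.Agent.P281.H180.TG

variable {E : Type*} [NormedAddCommGroup E] [NormedSpace ℂ E]

theorem li_iff {r : ℕ} (L : Fin r → E →L[ℂ] ℂ) :
    LinearIndependent ℂ (fun b => (L b : E →ₗ[ℂ] ℂ)) ↔ LinearIndependent ℂ L := by
  rw [Fintype.linearIndependent_iff, Fintype.linearIndependent_iff]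
  refine forall_congr' fun c => ?_
  have h : (∑ b, c b • (L b : E →ₗ[ℂ] ℂ)) = 0 ↔ ∑ b, c b • L b = 0 := by
    constructor
    · intro h
      ext ξ
      have h1 := congrArg (fun T : E →ₗ[ℂ] ℂ => T ξ) h
      simpa [LinearMap.sum_apply, _root_.sum_apply] using h1
    · intro h
      ext ξ
      have h1 := congrArg (fun T : E →L[ℂ] ℂ => T ξ) h
      simpa [LinearMap.sum_apply, _root_.sum_apply] using h1
  rw [h]

theorem pow_rank [FiniteDimensional ℂ E] (r M : ℕ) (a : Fin M → E → ℂ) (i : Fin (r + 1) → Fin M)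
    (v₀ : E) (ha : ∀ j, AnalyticAt ℂ (a j) v₀) (h0 : a (i 0) v₀ ≠ 0)
    (hs : Function.Surjective fun (ξ : E) (b : Fin r) =>
      fderiv ℂ (fun v => a (i b.succ) v / a (i 0) v) v₀ ξ) :
    ∃ᶠ v in 𝓝 v₀, ∃ (k₀ : ℕ) (k : Fin r → ℕ), 0 < k₀ ∧ k₀ ≤ M ∧ (∀ b, 0 < k b ∧ k b ≤ M) ∧
      ∑ j, a j v ^ k₀ ≠ 0 ∧ Function.Surjective fun (ξ : E) (b : Fin r) =>
        fderiv ℂ (fun v => (∑ j, a j v ^ k b) ^ (M.factorial / k b) /
          (∑ j, a j v ^ k₀) ^ (M.factorial / k₀)) v ξ := by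
  classical
  set R : Fin r → E → ℂ := fun b v => a (i b.succ) v / a (i 0) v with hR
  have hRa : ∀ b, AnalyticAt ℂ (R b) v₀ := fun b => (ha _).fun_div (ha _) h0
  have hli0 : LinearIndependent ℂ (fun b => fderiv ℂ (R b) v₀) := by
    rw [← li_iff, ← surj_iff]
    exact hs
  have hev : ∀ᶠ v in 𝓝 v₀, LinearIndependent ℂ (fun b => fderiv ℂ (R b) v) := by
    have hc : ContinuousAt (fun v => fun b => fderiv ℂ (R b) v) v₀ :=
      continuousAt_pi.2 fun b => (hRa b).fderiv.continuousAt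
    exact hc.eventually (isOpen_setOfPred_linearIndependent.mem_nhds hli0)
  have hev2 : ∀ᶠ v in 𝓝 v₀, ∀ j, AnalyticAt ℂ (a j) v :=
    eventually_all.2 fun j => (ha j).eventually_analyticAt
  have hev3 : ∀ᶠ v in 𝓝 v₀, a (i 0) v ≠ 0 := (ha _).continuousAt.eventually_ne h0
  rw [frequently_iff]
  intro U hU
  obtain ⟨W, hWsub, hWo, hvW⟩ := _root_.mem_nhds_iff.1
    (Filter.inter_mem hU (hev.and (hev2.and hev3)))
  have hWa : ∀ v ∈ W, ∀ j, AnalyticAt ℂ (a j) v := fun v hv => (hWsub hv).2.2.1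
  have hcont : ∀ j, ContinuousOn (a j) W := fun j v hv =>
    (hWa v hv j).continuousAt.continuousWithinAt
  set H : (Fin M × Fin M) ⊕ Fin (M + 1) → E → ℂ := fun q => match q with
    | Sum.inl p => fun v => a p.1 v - a p.2 v
    | Sum.inr k => fun v => ∑ j, a j v ^ (k : ℕ) with hH
  obtain ⟨W', hW's, hW'o, ⟨v, hv⟩, hgen⟩ := generic (Finset.univ) H hWo ⟨v₀, hvW⟩ (by
    rintro (p | k) -
    · exact (hcont p.1).sub (hcont p.2)
    · exact continuousOn_finsetSum _ fun j _ => (hcont j).pow _)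
  have hvW1 := hW's hv
  obtain ⟨hvU, hli, hav, h0v⟩ := hWsub hvW1
  refine ⟨v, hvU, ?_⟩
  have hd : ∀ j, DifferentiableAt ℂ (a j) v := fun j => (hav j).differentiableAt
  have hg : ∀ j l, a j v ≠ a l v ∨ a j =ᶠ[𝓝 v] a l := by
    intro j l
    rcases hgen (Sum.inl (j, l)) (Finset.mem_univ _) v hv with h | h
    · left
      exact sub_ne_zero.1 h
    · right
      filter_upwards [h] with w hw
      exact sub_eq_zero.1 hw
  have hT : ∀ k, 0 < k → k ≤ M → ∑ j, a j v ^ k ≠ 0 ∨ (fun v => ∑ j, a j v ^ k) =ᶠ[𝓝 v] 0 := by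
    intro k _ hk
    exact hgen (Sum.inr ⟨k, Nat.lt_succ_of_le hk⟩) (Finset.mem_univ _) v hv
  obtain ⟨k₀, hk₀, hk₀M, hT₀⟩ := exists_pow (fun j => a j v) (i 0) h0v
  set F : Fin M → E → ℂ := fun k v => (∑ j, a j v ^ ((k : ℕ) + 1)) ^ (M.factorial / ((k : ℕ) + 1)) /
          (∑ j, a j v ^ k₀) ^ (M.factorial / k₀) with hF
  obtain ⟨k', hk'⟩ := exists_sub (fun k => (fderiv ℂ (F k) v : E →ₗ[ℂ] ℂ))
    (fun b => (fderiv ℂ (R b) v : E →ₗ[ℂ] ℂ)) ((li_iff _).2 hli) (by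
      intro ξ hξ b
      obtain ⟨μ, hμ⟩ := point hd hg hT hk₀ hk₀M hT₀ ξ (by
        intro k hk hkM
        obtain ⟨m, rfl⟩ := Nat.exists_eq_succ_of_ne_zero hk.ne'
        exact hξ ⟨m, hkM⟩)
      have hRd : DifferentiableAt ℂ (R b) v := ((hav _).fun_div (hav _) h0v).differentiableAt
      have h1 := line hRd ξ
      have h2 := (line (hd (i b.succ)) ξ).fun_div (line (hd (i 0)) ξ) (by simpa using h0v)
      have h3 := h1.unique h2
      simp only [zero_smul, add_zero, hμ] at h3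
      rw [ContinuousLinearMap.coe_coe, h3, div_eq_zero_iff]
      left
      ring)
  refine ⟨k₀, fun b => (k' b : ℕ) + 1, hk₀, hk₀M, fun b => ⟨Nat.succ_pos _, (k' b).2⟩, hT₀, ?_⟩
  exact (surj_iff _).2 hk'

end Vale.Agent.P281.H180.TG
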