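import Vale.Agent.P281.H969.TG.Spec
import Vale.Agent.P281.H180.TG.PowC

/-!
# P281, project T-G, block G7: the rank of the power sums (helper180)
-/

namespace Vale.Agent.P281.H180.TG

/-- **G7**. -/
theorem pow : Vale.Agent.P281.H969.TG.PowStmt := fun _ r M a i v₀ ha h0 hs =>
  pow_rank r M a i v₀ ha h0 hs

end Vale.Agent.P281.H180.TG
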