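import Mathlib

/-!
# P281, project T-G, block G7: the rank of the power sums (helper180)
-/

open Set Filter Metric

open scoped Topology

noncomputable section

namespace Vale.Agent.P281.H180.TG

/-- Interpolation: the power sums of `b` at the nodes `x` determine the sums over the values. -/
theorem interp {M : ℕ} (x b : Fin M → ℂ) (h : ∀ k < M, ∑ j, x j ^ k * b j = 0) (j₀ : Fin M) :
    ∑ j with x j = x j₀, b j = 0 := by
  classical
  set S : Finset ℂ := (Finset.univ.image x).erase (x j₀) with hS
  have hcard : S.card < M := by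
    have h1 : x j₀ ∈ Finset.univ.image x := Finset.mem_image_of_mem _ (Finset.mem_univ _)
    have h2 : (Finset.univ.image x).card ≤ M := by
      simpa using (Finset.card_image_le (s := (Finset.univ : Finset (Fin M))) (f := x))
    have h3 : S.card < (Finset.univ.image x).card := Finset.card_erase_lt_of_mem h1
    omega
  set P : Polynomial ℂ := ∏ c ∈ S, (Polynomial.X - Polynomial.C c) with hP
  have hdeg : P.natDegree < M := by
    have : P.natDegree ≤ S.card := by
      rw [hP, Polynomial.natDegree_prod_of_monic _ _ fun c _ => Polynomial.monic_X_sub_C c]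
      simp
    omega
  have key : ∑ j, P.eval (x j) * b j = 0 := by
    have : ∀ j, P.eval (x j) * b j = ∑ k ∈ Finset.range M, P.coeff k * (x j ^ k * b j) := by
      intro j
      rw [Polynomial.eval_eq_sum_range' hdeg, Finset.sum_mul]
      exact Finset.sum_congr rfl fun k _ => by ring
    rw [Finset.sum_congr rfl fun j _ => this j, Finset.sum_comm]
    refine Finset.sum_eq_zero fun k hk => ?_
    rw [← Finset.mul_sum, h k (Finset.mem_range.1 hk), mul_zero]
  have hP0 : P.eval (x j₀) ≠ 0 := by
    rw [hP, Polynomial.eval_prod]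
    refine Finset.prod_ne_zero_iff.2 fun c hc => ?_
    simp only [Polynomial.eval_sub, Polynomial.eval_X, Polynomial.eval_C]
    intro h0
    have : c = x j₀ := (sub_eq_zero.1 h0).symm
    rw [hS] at hc
    exact (Finset.ne_of_mem_erase hc) this
  have hne : ∀ j, x j ≠ x j₀ → P.eval (x j) = 0 := by
    intro j hj
    rw [hP, Polynomial.eval_prod]
    refine Finset.prod_eq_zero (i := x j) ?_ (by simp)
    rw [hS]
    exact Finset.mem_erase.2 ⟨hj, Finset.mem_image_of_mem _ (Finset.mem_univ _)⟩
  have h2 : ∑ j, P.eval (x j) * b j = P.eval (x j₀) * ∑ j with x j = x j₀, b j := by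
    rw [Finset.mul_sum, Finset.sum_filter]
    refine Finset.sum_congr rfl fun j _ => ?_
    by_cases hj : x j = x j₀
    · simp [hj]
    · simp [hj, hne j hj]
  rw [h2] at key
  exact (mul_eq_zero.1 key).resolve_left hP0

/-- Linear independence of functionals is surjectivity. -/
theorem surj_iff {E : Type*} [AddCommGroup E] [Module ℂ E] {r : ℕ} (L : Fin r → E →ₗ[ℂ] ℂ) :
    (Function.Surjective fun (ξ : E) (b : Fin r) => L b ξ) ↔ LinearIndependent ℂ L := by
  classical
  constructor
  · intro hs
    rw [Fintype.linearIndependent_iff]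
    intro c hc b₀
    obtain ⟨ξ, hξ⟩ := hs (Pi.single b₀ 1)
    have := congrArg (fun T : E →ₗ[ℂ] ℂ => T ξ) hc
    simp only [LinearMap.sum_apply, LinearMap.smul_apply, smul_eq_mul, LinearMap.zero_apply] at this
    have h2 : ∀ b, L b ξ = (Pi.single b₀ 1 : Fin r → ℂ) b := fun b => congrFun hξ b
    simp only [h2, Pi.single_apply, mul_ite, mul_one, mul_zero, Finset.sum_ite_eq',
      Finset.mem_univ, if_true] at this
    exact this
  · intro hL
    by_contra hns
    have hlt : LinearMap.range (LinearMap.pi L) < ⊤ := by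
      rw [lt_top_iff_ne_top]
      intro h
      exact hns fun c => by
        obtain ⟨ξ, hξ⟩ := LinearMap.range_eq_top.1 h c
        exact ⟨ξ, hξ⟩
    obtain ⟨φ, hφ, hle⟩ := Submodule.exists_le_ker_of_lt_top _ hlt
    apply hφ
    rw [Fintype.linearIndependent_iff] at hL
    have h0 := hL (fun b => φ (Pi.single b 1)) (by
      ext ξ
      have h1 : φ (LinearMap.pi L ξ) = 0 := hle ⟨ξ, rfl⟩
      have h2 : LinearMap.pi L ξ = ∑ b, L b ξ • (Pi.single b 1 : Fin r → ℂ) := by
        ext b
        simp [Finset.sum_apply, Pi.single_apply]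
      rw [h2, map_sum] at h1
      simp only [map_smul, smul_eq_mul] at h1
      simp only [LinearMap.sum_apply, LinearMap.smul_apply, smul_eq_mul, LinearMap.zero_apply]
      rw [← h1]
      exact Finset.sum_congr rfl fun b _ => mul_comm _ _)
    ext b
    simpa using h0 b

/-- A family of functionals, whose common kernel lies in that of `r` independent ones, contains `r`
independent ones. -/
theorem exists_sub {E : Type*} [AddCommGroup E] [Module ℂ E] {r M : ℕ} (L : Fin M → E →ₗ[ℂ] ℂ)
    (A : Fin r → E →ₗ[ℂ] ℂ) (hA : LinearIndependent ℂ A)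
    (h : ∀ ξ, (∀ k, L k ξ = 0) → ∀ b, A b ξ = 0) :
    ∃ k : Fin r → Fin M, LinearIndependent ℂ fun b => L (k b) := by
  classical
  obtain ⟨κ, a, hinj, hsp, hli⟩ := exists_linearIndependent' ℂ L
  have : Finite κ := Finite.of_injective a hinj
  let _ : Fintype κ := Fintype.ofFinite κ
  have hmem : ∀ b, A b ∈ Submodule.span ℂ (range L) := by
    intro b
    refine mem_span_of_iInf_ker_le_ker ?_
    intro ξ hξ
    rw [Submodule.mem_iInf] at hξ
    exact h ξ (fun k => hξ k) b
  have hle : Submodule.span ℂ (range A) ≤ Submodule.span ℂ (range (L ∘ a)) := by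
    rw [hsp, Submodule.span_le]
    rintro _ ⟨b, rfl⟩
    exact hmem b
  have h1 : r ≤ Fintype.card κ := by
    have e1 := finrank_span_eq_card hA
    have e2 := finrank_span_eq_card hli
    have : FiniteDimensional ℂ (Submodule.span ℂ (range (L ∘ a))) :=
      FiniteDimensional.span_of_finite ℂ (Set.finite_range _)
    have := Submodule.finrank_mono hle
    simp only [Fintype.card_fin] at e1
    omega
  obtain ⟨e⟩ : Nonempty (Fin r ↪ κ) := by
    refine Function.Embedding.nonempty_of_card_le ?_
    simpa using h1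
  exact ⟨fun b => a (e b), hli.comp e e.injective⟩

/-- Generic points of finitely many continuous functions. -/
theorem generic {E : Type*} [TopologicalSpace E] {ι : Type*} (s : Finset ι) (h : ι → E → ℂ)
    {W : Set E} (hW : IsOpen W) (hne : W.Nonempty) (hc : ∀ i ∈ s, ContinuousOn (h i) W) :
    ∃ W' ⊆ W, IsOpen W' ∧ W'.Nonempty ∧ ∀ i ∈ s, ∀ v ∈ W', h i v ≠ 0 ∨ h i =ᶠ[𝓝 v] 0 := by
  classical
  induction s using Finset.induction_on with
  | empty => exact ⟨W, subset_rfl, hW, hne, by simp⟩
  | insert i s hi ih =>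
    obtain ⟨W₁, hsub, ho, hne1, hg⟩ := ih fun j hj => hc j (Finset.mem_insert_of_mem hj)
    by_cases hz : ∀ v ∈ W₁, h i v = 0
    · refine ⟨W₁, hsub, ho, hne1, fun j hj v hv => ?_⟩
      rcases Finset.mem_insert.1 hj with rfl | hj
      · right
        filter_upwards [ho.mem_nhds hv] with w hw
        simpa using hz w hw
      · exact hg j hj v hv
    · push Not at hz
      obtain ⟨v₁, hv1, hv1'⟩ := hz
      have hcon : ContinuousOn (h i) W₁ := (hc i (Finset.mem_insert_self _ _)).mono hsub
      refine ⟨W₁ ∩ h i ⁻¹' {0}ᶜ, inter_subset_left.trans hsub,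
        hcon.isOpen_inter_preimage ho isOpen_compl_singleton, ⟨v₁, hv1, hv1'⟩, fun j hj v hv => ?_⟩
      rcases Finset.mem_insert.1 hj with rfl | hj
      · left
        exact hv.2
      · exact hg j hj v hv.1

end Vale.Agent.P281.H180.TG
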