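import Vale.Agent.P281.H180.TG.PowA

/-!
# P281, project T-G, block G7: the derivatives (helper180)
-/

open Set Filter Metric

open scoped Topology

noncomputable section

namespace Vale.Agent.P281.H180.TG

variable {E : Type*} [NormedAddCommGroup E] [NormedSpace ℂ E]

/-- The derivative along a line. -/
theorem line {f : E → ℂ} {v : E} (hf : DifferentiableAt ℂ f v) (ξ : E) :
    HasDerivAt (fun t : ℂ => f (v + t • ξ)) (fderiv ℂ f v ξ) 0 := by
  have h := hf.hasFDerivAt.hasLineDerivAt ξ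
  exact h

theorem line_pow {M : ℕ} {a : Fin M → E → ℂ} {v : E} (ha : ∀ j, DifferentiableAt ℂ (a j) v)
    (ξ : E) (k : ℕ) : HasDerivAt (fun t : ℂ => ∑ j, a j (v + t • ξ) ^ k)
      (∑ j, (k : ℂ) * a j v ^ (k - 1) * fderiv ℂ (a j) v ξ) 0 := by
  have h : ∀ j ∈ (Finset.univ : Finset (Fin M)), HasDerivAt (fun t : ℂ => a j (v + t • ξ) ^ k)
      ((k : ℂ) * a j v ^ (k - 1) * fderiv ℂ (a j) v ξ) 0 := by
    intro j _
    have h1 := (line (ha j) ξ).fun_pow k
    simpa using h1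
  have h2 := HasDerivAt.fun_sum h
  exact h2

theorem diff_pow {M : ℕ} {a : Fin M → E → ℂ} {v : E} (ha : ∀ j, DifferentiableAt ℂ (a j) v)
    (k : ℕ) : DifferentiableAt ℂ (fun v => ∑ j, a j v ^ k) v := by
  fun_prop

/-- The computation at a general point. -/
theorem point {M : ℕ} {a : Fin M → E → ℂ} {v : E} (ha : ∀ j, DifferentiableAt ℂ (a j) v)
    (hg : ∀ j l, a j v ≠ a l v ∨ a j =ᶠ[𝓝 v] a l)
    (hT : ∀ k, 0 < k → k ≤ M → ∑ j, a j v ^ k ≠ 0 ∨ (fun v => ∑ j, a j v ^ k) =ᶠ[𝓝 v] 0)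
    {k₀ : ℕ} (hk₀ : 0 < k₀) (hk₀M : k₀ ≤ M) (hT₀ : ∑ j, a j v ^ k₀ ≠ 0) (ξ : E)
    (hξ : ∀ k, 0 < k → k ≤ M → fderiv ℂ (fun v => (∑ j, a j v ^ k) ^ (M.factorial / k) /
      (∑ j, a j v ^ k₀) ^ (M.factorial / k₀)) v ξ = 0) :
    ∃ μ : ℂ, ∀ j, fderiv ℂ (a j) v ξ = μ * a j v := by
  classical
  set T : ℕ → ℂ := fun k => ∑ j, a j v ^ k with hTdef
  set T' : ℕ → ℂ := fun k => ∑ j, (k : ℂ) * a j v ^ (k - 1) * fderiv ℂ (a j) v ξ with hT'def
  set μ : ℂ := T' k₀ / (k₀ * T k₀) with hμ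
  have hk₀c : (k₀ : ℂ) ≠ 0 := Nat.cast_ne_zero.2 hk₀.ne'
  have hT₀' : T k₀ ≠ 0 := hT₀
  -- the equation for each `k`
  have e1 : ∀ k, 0 < k → k ≤ M → T' k = k * μ * T k := by
    intro k hk hkM
    rcases hT k hk hkM with h | h
    · have hkc : (k : ℂ) ≠ 0 := Nat.cast_ne_zero.2 hk.ne'
      have hTk : T k ≠ 0 := h
      set n := M.factorial / k with hn
      set n₀ := M.factorial / k₀ with hn₀
      have hnk : n * k = M.factorial := Nat.div_mul_cancel (Nat.dvd_factorial hk hkM)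
      have hnk₀ : n₀ * k₀ = M.factorial := Nat.div_mul_cancel (Nat.dvd_factorial hk₀ hk₀M)
      have hnpos : n ≠ 0 := by
        intro h0
        rw [h0, zero_mul] at hnk
        exact M.factorial_ne_zero hnk.symm
      have hn₀pos : n₀ ≠ 0 := by
        intro h0
        rw [h0, zero_mul] at hnk₀
        exact M.factorial_ne_zero hnk₀.symm
      have d1 : DifferentiableAt ℂ (fun v => (∑ j, a j v ^ k) ^ n) v := (diff_pow ha k).fun_pow n
      have d2 : DifferentiableAt ℂ (fun v => (∑ j, a j v ^ k₀) ^ n₀) v :=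
        (diff_pow ha k₀).fun_pow n₀
      have d3 : (fun v => (∑ j, a j v ^ k₀) ^ n₀) v ≠ 0 := pow_ne_zero _ hT₀
      have hdiff : DifferentiableAt ℂ (fun v => (∑ j, a j v ^ k) ^ n / (∑ j, a j v ^ k₀) ^ n₀) v :=
        by simpa only [div_eq_mul_inv] using d1.fun_mul (d2.fun_inv d3)
      have h1 := line hdiff ξ
      rw [hξ k hk hkM] at h1
      have h2 := ((line_pow ha ξ k).fun_pow n).fun_div ((line_pow ha ξ k₀).fun_pow n₀) (by
        simpa using pow_ne_zero n₀ hT₀)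
      have h3 := h1.unique h2
      simp only [zero_smul, add_zero] at h3
      have h4 : (↑n * T k ^ (n - 1) * T' k) * T k₀ ^ n₀ - T k ^ n * (↑n₀ * T k₀ ^ (n₀ - 1) * T' k₀)
          = 0 := by
        have h5 : (T k₀ ^ n₀) ^ 2 ≠ 0 := pow_ne_zero _ (pow_ne_zero _ hT₀')
        have h6 := h3.symm
        rw [div_eq_zero_iff] at h6
        rcases h6 with h6 | h6
        · exact h6
        · exact absurd h6 h5
      obtain ⟨m, hm⟩ := Nat.exists_eq_succ_of_ne_zero hnpos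
      obtain ⟨m₀, hm₀⟩ := Nat.exists_eq_succ_of_ne_zero hn₀pos
      have h7 : (T k ^ m * T k₀ ^ m₀) * ((n : ℂ) * T' k * T k₀ - T k * (n₀ * T' k₀)) = 0 := by
        rw [← h4, hm, hm₀]
        simp only [Nat.succ_eq_add_one, Nat.add_sub_cancel, pow_succ]
        ring
      have h8 : (n : ℂ) * T' k * T k₀ - T k * (n₀ * T' k₀) = 0 :=
        (mul_eq_zero.1 h7).resolve_left (mul_ne_zero (pow_ne_zero _ hTk) (pow_ne_zero _ hT₀'))
      have c1 : (n : ℂ) * k = n₀ * k₀ := by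
        rw [← Nat.cast_mul, ← Nat.cast_mul, hnk, hnk₀]
      have hnc : (n : ℂ) ≠ 0 := Nat.cast_ne_zero.2 hnpos
      have h9 : (n : ℂ) * (k₀ * T' k * T k₀ - k * T k * T' k₀) = 0 := by
        have : (n : ℂ) * (k₀ * T' k * T k₀ - k * T k * T' k₀) =
            k₀ * ((n : ℂ) * T' k * T k₀ - T k * (n₀ * T' k₀)) +
              (n₀ * k₀ - n * k) * (T k * T' k₀) := by ring
        rw [this, h8, c1]
        ring
      have h10 : (k₀ : ℂ) * T' k * T k₀ = k * T k * T' k₀ :=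
        sub_eq_zero.1 ((mul_eq_zero.1 h9).resolve_left hnc)
      rw [hμ]
      field_simp
      linear_combination h10
    · have hTk : T k = 0 := h.self_of_nhds
      have hz : HasDerivAt (fun t : ℂ => ∑ j, a j (v + t • ξ) ^ k) 0 0 := by
        have hev : (fun t : ℂ => ∑ j, a j (v + t • ξ) ^ k) =ᶠ[𝓝 0] fun _ => 0 := by
          have hc : Tendsto (fun t : ℂ => v + t • ξ) (𝓝 0) (𝓝 v) := by
            have : ContinuousAt (fun t : ℂ => v + t • ξ) 0 := by fun_prop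
            simpa [ContinuousAt] using this
          exact hc.eventually h
        exact (hasDerivAt_const (0 : ℂ) (0 : ℂ)).congr_of_eventuallyEq hev
      have : T' k = 0 := (line_pow ha ξ k).unique hz
      rw [this, hTk, mul_zero]
  refine ⟨μ, fun j₀ => ?_⟩
  have e2 := interp (fun j => a j v) (fun j => fderiv ℂ (a j) v ξ - μ * a j v) (by
    intro k hk
    have h1 := e1 (k + 1) (Nat.succ_pos k) hk
    have hkc : ((k + 1 : ℕ) : ℂ) ≠ 0 := Nat.cast_ne_zero.2 (Nat.succ_ne_zero k)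
    have h2 : ((k + 1 : ℕ) : ℂ) * ∑ j, a j v ^ k * (fderiv ℂ (a j) v ξ - μ * a j v) =
        T' (k + 1) - ((k + 1 : ℕ) : ℂ) * μ * T (k + 1) := by
      simp only [hT'def, hTdef, Finset.mul_sum, ← Finset.sum_sub_distrib, Nat.add_sub_cancel]
      refine Finset.sum_congr rfl fun j _ => ?_
      rw [pow_succ]
      ring
    rw [h1, sub_self] at h2
    exact (mul_eq_zero.1 h2).resolve_left hkc) j₀
  have e3 : ∀ j ∈ (Finset.univ.filter fun j => a j v = a j₀ v),
      fderiv ℂ (a j) v ξ - μ * a j v = fderiv ℂ (a j₀) v ξ - μ * a j₀ v := by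
    intro j hj
    have hj' : a j v = a j₀ v := (Finset.mem_filter.1 hj).2
    rcases hg j j₀ with h | h
    · exact absurd hj' h
    · rw [h.fderiv_eq, hj']
  rw [Finset.sum_congr rfl e3, Finset.sum_const, nsmul_eq_mul] at e2
  have hcard : ((Finset.univ.filter fun j => a j v = a j₀ v).card : ℂ) ≠ 0 := by
    refine Nat.cast_ne_zero.2 (Finset.card_pos.2 ⟨j₀, ?_⟩).ne'
    simp
  exact sub_eq_zero.1 ((mul_eq_zero.1 e2).resolve_left hcard)

/-- Some power sum is not zero. -/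
theorem exists_pow {M : ℕ} (x : Fin M → ℂ) (j₀ : Fin M) (h0 : x j₀ ≠ 0) :
    ∃ k, 0 < k ∧ k ≤ M ∧ ∑ j, x j ^ k ≠ 0 := by
  classical
  by_contra hcon
  push Not at hcon
  have h := interp x x (by
    intro k hk
    have := hcon (k + 1) (Nat.succ_pos k) hk
    rw [← this]
    exact Finset.sum_congr rfl fun j _ => (pow_succ _ _).symm) j₀
  have e3 : ∀ j ∈ (Finset.univ.filter fun j => x j = x j₀), x j = x j₀ :=
    fun j hj => (Finset.mem_filter.1 hj).2
  rw [Finset.sum_congr rfl e3, Finset.sum_const, nsmul_eq_mul] at h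
  have hcard : ((Finset.univ.filter fun j => x j = x j₀).card : ℂ) ≠ 0 := by
    refine Nat.cast_ne_zero.2 (Finset.card_pos.2 ⟨j₀, ?_⟩).ne'
    simp
  exact h0 ((mul_eq_zero.1 h).resolve_left hcard)

end Vale.Agent.P281.H180.TG
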